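import Mathlib

/-! Real-variable inequalities used on a single edge of the chain. -/

set_option autoImplicit false

namespace Crest.Agent.H0127

/-- The smoothing function `3p² - 2p³`. -/
def phi (p : ℝ) : ℝ := 3 * p ^ 2 - 2 * p ^ 3

lemma abs_phi_sub_le {p r : ℝ} (hp0 : 0 ≤ p) (hp1 : p ≤ 1) (hr0 : 0 ≤ r) (hr1 : r ≤ 1) :
    |phi p - phi r| ≤ 6 * (((p + r) / 2) * (1 - (p + r) / 2)) * |p - r| := by
  have e : phi p - phi r = (3 * (p + r) - 2 * (p ^ 2 + p * r + r ^ 2)) * (p - r) := by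
    unfold phi; ring
  rw [e, abs_mul]
  refine mul_le_mul_of_nonneg_right ?_ (abs_nonneg _)
  rw [abs_le]
  constructor
  · nlinarith [mul_nonneg hp0 (sub_nonneg.2 hp1), mul_nonneg hr0 (sub_nonneg.2 hr1),
      mul_nonneg hp0 (sub_nonneg.2 hr1), mul_nonneg hr0 (sub_nonneg.2 hp1)]
  · nlinarith [sq_nonneg (p - r)]

lemma abs_phi_sub_zero_le {p : ℝ} (hp0 : 0 ≤ p) (hp1 : p ≤ 1) : |phi p - 0| ≤ 2 * |p - 0| := by
  rw [sub_zero, sub_zero, abs_of_nonneg hp0, abs_le]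
  unfold phi
  constructor
  · nlinarith [mul_nonneg hp0 hp0, mul_nonneg (mul_nonneg hp0 hp0) (sub_nonneg.2 hp1)]
  · nlinarith [mul_nonneg hp0 (sq_nonneg (p - 3 / 4))]

lemma abs_phi_sub_one_le {p : ℝ} (hp0 : 0 ≤ p) (hp1 : p ≤ 1) : |phi p - 1| ≤ 2 * |p - 1| := by
  have h := abs_phi_sub_zero_le (p := 1 - p) (by linarith) (by linarith)
  have e : phi (1 - p) - 0 = -(phi p - 1) := by unfold phi; ring
  have e2 : (1 - p) - 0 = -(p - 1) := by ring
  rwa [e, e2, abs_neg, abs_neg] at h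

lemma core_ineq {q q' σ u v : ℝ} (hq0 : 0 ≤ q) (hq1 : q ≤ 1 / 4) (hq0' : 0 ≤ q')
    (hq1' : q' ≤ 1 / 4) (hσ : σ ^ 2 ≤ q * q') :
    q * q' * |u * v| ≤ (σ - u * v / 4) ^ 2 * |u * v| +
      (q' * u ^ 2 + q * v ^ 2 + 2 * σ * (u * v)) / 4 := by
  set s := Real.sqrt (q * q') with hs
  have hs0 : 0 ≤ s := Real.sqrt_nonneg _
  have hss : s ^ 2 = q * q' := Real.sq_sqrt (mul_nonneg hq0 hq0')
  have hs1 : s ≤ 1 / 4 := by
    rw [hs]
    apply Real.sqrt_le_iff.2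
    refine ⟨by norm_num, ?_⟩
    nlinarith
  have hσs : |σ| ≤ s := Real.abs_le_sqrt hσ
  have hw0 : 0 ≤ |u * v| := abs_nonneg _
  -- AM-GM
  have hamgm : 2 * s * |u * v| ≤ q' * u ^ 2 + q * v ^ 2 := by
    have h1 : 0 ≤ q' * u ^ 2 + q * v ^ 2 := by positivity
    have h2 : (2 * s * |u * v|) ^ 2 ≤ (q' * u ^ 2 + q * v ^ 2) ^ 2 := by
      have : (2 * s * |u * v|) ^ 2 = 4 * (q * q') * (u * v) ^ 2 := by
        rw [mul_pow, mul_pow, sq_abs, hss]; ring
      rw [this]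
      nlinarith [sq_nonneg (q' * u ^ 2 - q * v ^ 2)]
    exact (abs_le_of_sq_le_sq' h2 h1).2
  rw [← hss]
  by_cases h : 0 ≤ σ * (u * v)
  · have h3 : 0 ≤ (σ - u * v / 4) ^ 2 * |u * v| := by positivity
    have h4 : s ^ 2 * |u * v| ≤ (1 / 4) * (s * |u * v|) := by
      have : s ^ 2 * |u * v| = s * (s * |u * v|) := by ring
      rw [this]
      exact mul_le_mul_of_nonneg_right hs1 (mul_nonneg hs0 hw0)
    have h5 : 0 ≤ s * |u * v| := mul_nonneg hs0 hw0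
    nlinarith
  · push Not at h
    have h3 : σ ^ 2 ≤ (σ - u * v / 4) ^ 2 := by nlinarith [sq_nonneg (u * v)]
    have h4 : σ * (u * v) = -(|σ| * |u * v|) := by
      rw [← abs_mul, abs_of_neg h]; ring
    have h5 : σ ^ 2 * |u * v| ≤ (σ - u * v / 4) ^ 2 * |u * v| :=
      mul_le_mul_of_nonneg_right h3 hw0
    have h6 : σ ^ 2 = |σ| ^ 2 := (sq_abs σ).symm
    have h7 : s ^ 2 - |σ| ^ 2 ≤ (s - |σ|) / 2 := by
      have : s ^ 2 - |σ| ^ 2 = (s - |σ|) * (s + |σ|) := by ring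
      rw [this]
      have h8 : s + |σ| ≤ 1 / 2 := by linarith
      have h9 : 0 ≤ s - |σ| := by linarith
      nlinarith
    have h8 : (s ^ 2 - |σ| ^ 2) * |u * v| ≤ (s - |σ|) / 2 * |u * v| :=
      mul_le_mul_of_nonneg_right h7 hw0
    rw [h6] at h5
    nlinarith

lemma abs_mul_le_half (u v : ℝ) : |u * v| ≤ (u ^ 2 + v ^ 2) / 2 := by
  rw [abs_le]; constructor <;> nlinarith [sq_nonneg (u - v), sq_nonneg (u + v)]

/-- The single-edge inequality. -/
lemma edge_ineq {a b c d a' b' c' d' : ℝ} (ha : 0 ≤ a) (hb : 0 ≤ b) (hc : 0 ≤ c) (hd : 0 ≤ d)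
    (h : a + b + c + d = 1) (ha' : 0 ≤ a') (hb' : 0 ≤ b') (hc' : 0 ≤ c') (hd' : 0 ≤ d')
    (h' : a' + b' + c' + d' = 1) :
    |phi (c + d) - phi (c' + d')| * |phi (b + d) - phi (b' + d')| ≤
      36 * (((c + d) - (c' + d')) * ((a * d - b * c) ^ 2 * (c + d - 1 / 2)
              - (a' * d' - b' * c') ^ 2 * (c' + d' - 1 / 2))
          + ((b + d) - (b' + d')) * ((a * d - b * c) ^ 2 * (b + d - 1 / 2)
              - (a' * d' - b' * c') ^ 2 * (b' + d' - 1 / 2))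
          + ((a + a') / 2 * (d - d') ^ 2 + (d + d') / 2 * (a - a') ^ 2
              + (b + b') / 2 * (c - c') ^ 2 + (c + c') / 2 * (b - b') ^ 2)) := by
  have h1 := abs_phi_sub_le (p := c + d) (r := c' + d') (by linarith) (by linarith) (by linarith)
    (by linarith)
  have h2 := abs_phi_sub_le (p := b + d) (r := b' + d') (by linarith) (by linarith) (by linarith)
    (by linarith)
  set u := (c + d) - (c' + d') with hu
  set v := (b + d) - (b' + d') with hv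
  set pm := ((c + d) + (c' + d')) / 2 with hpm
  set pm' := ((b + d) + (b' + d')) / 2 with hpm'
  set q := pm * (1 - pm) with hq
  set q' := pm' * (1 - pm') with hq'
  have hpm0 : 0 ≤ pm := by rw [hpm]; linarith
  have hpm1 : pm ≤ 1 := by rw [hpm]; linarith
  have hpm0' : 0 ≤ pm' := by rw [hpm']; linarith
  have hpm1' : pm' ≤ 1 := by rw [hpm']; linarith
  have hq0 : 0 ≤ q := mul_nonneg hpm0 (by linarith)
  have hq0' : 0 ≤ q' := mul_nonneg hpm0' (by linarith)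
  have hq1 : q ≤ 1 / 4 := by rw [hq]; nlinarith [sq_nonneg (pm - 1 / 2)]
  have hq1' : q' ≤ 1 / 4 := by rw [hq']; nlinarith [sq_nonneg (pm' - 1 / 2)]
  obtain rfl : a = 1 - b - c - d := by linarith
  obtain rfl : a' = 1 - b' - c' - d' := by linarith
  set am := ((1 - b - c - d) + (1 - b' - c' - d')) / 2 with ham
  set bm := (b + b') / 2 with hbm
  set cm := (c + c') / 2 with hcm
  set dm := (d + d') / 2 with hdm
  have ham0 : 0 ≤ am := by rw [ham]; linarith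
  have hbm0 : 0 ≤ bm := by rw [hbm]; linarith
  have hcm0 : 0 ≤ cm := by rw [hcm]; linarith
  have hdm0 : 0 ≤ dm := by rw [hdm]; linarith
  set σm := am * dm - bm * cm with hσm
  have hσ : σm ^ 2 ≤ q * q' := by
    have e : q * q' = σm ^ 2 + (am * dm * (bm + cm) + bm * cm * (am + dm)) := by
      simp only [hq, hq', hpm, hpm', hσm, ham, hbm, hcm, hdm]; ring
    rw [e]
    have : 0 ≤ am * dm * (bm + cm) + bm * cm * (am + dm) := by positivity
    linarith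
  have h3 := core_ineq (u := u) (v := v) hq0 hq1 hq0' hq1' hσ
  set σ1 := (1 - b - c - d) * d - b * c with hσ1
  set σ2 := (1 - b' - c' - d') * d' - b' * c' with hσ2
  have e1 : σm - u * v / 4 = (σ1 + σ2) / 2 := by
    simp only [hσm, hu, hv, hσ1, hσ2, ham, hbm, hcm, hdm]; ring
  have e2 : am * (d - d') ^ 2 + dm * ((1 - b - c - d) - (1 - b' - c' - d')) ^ 2
      + bm * (c - c') ^ 2 + cm * (b - b') ^ 2
      = (q' * u ^ 2 + q * v ^ 2 + 2 * σm * (u * v)) + (σ1 - σ2) ^ 2 := by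
    simp only [hq, hq', hpm, hpm', hσm, hu, hv, hσ1, hσ2, ham, hbm, hcm, hdm]; ring
  rw [e1] at h3
  rw [e2]
  set V := q' * u ^ 2 + q * v ^ 2 + 2 * σm * (u * v) with hV
  have hV0 : 0 ≤ V := by
    -- a variance
    have e : V = am * (pm * v + pm' * u) ^ 2 + dm * (pm * v + pm' * u - u - v) ^ 2
        + bm * (pm * v + pm' * u - u) ^ 2 + cm * (pm * v + pm' * u - v) ^ 2 := by
      simp only [hV, hq, hq', hpm, hpm', hσm, ham, hbm, hcm, hdm]; ring
    rw [e]; positivity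
  set σb := (σ1 + σ2) / 2 with hσb
  set δ := σ1 - σ2 with hδ
  have key : ∀ (p r : ℝ), 0 ≤ p → p ≤ 1 → 0 ≤ r → r ≤ 1 →
      σb ^ 2 * (p - r) ^ 2 / 2 ≤ (p - r) * (σ1 ^ 2 * (p - 1 / 2) - σ2 ^ 2 * (r - 1 / 2))
        + δ ^ 2 / 2 := by
    intro p r hp0 hp1 hr0 hr1
    have e : (p - r) * (σ1 ^ 2 * (p - 1 / 2) - σ2 ^ 2 * (r - 1 / 2)) + δ ^ 2 / 2
        - σb ^ 2 * (p - r) ^ 2 / 2
        = (σb * (p - r) + (p + r - 1) * δ) ^ 2 / 2 + (p + r) * (2 - (p + r)) * δ ^ 2 / 2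
          + δ ^ 2 * (p - r) ^ 2 / 4 := by
      simp only [hσb, hδ]; ring
    have : 0 ≤ (p + r) * (2 - (p + r)) := mul_nonneg (by linarith) (by linarith)
    have : 0 ≤ (σb * (p - r) + (p + r - 1) * δ) ^ 2 / 2 + (p + r) * (2 - (p + r)) * δ ^ 2 / 2
          + δ ^ 2 * (p - r) ^ 2 / 4 := by positivity
    linarith
  have k1 := key (c + d) (c' + d') (by linarith) (by linarith) (by linarith) (by linarith)
  have k2 := key (b + d) (b' + d') (by linarith) (by linarith) (by linarith) (by linarith)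
  rw [← hu] at k1
  rw [← hv] at k2
  have h4 : |u * v| ≤ (u ^ 2 + v ^ 2) / 2 := abs_mul_le_half u v
  have h5 : σb ^ 2 * |u * v| ≤ σb ^ 2 * ((u ^ 2 + v ^ 2) / 2) :=
    mul_le_mul_of_nonneg_left h4 (sq_nonneg _)
  have h6 : |phi (c + d) - phi (c' + d')| * |phi (b + d) - phi (b' + d')| ≤
      (6 * q * |u|) * (6 * q' * |v|) :=
    mul_le_mul h1 h2 (abs_nonneg _) (by positivity)
  have h7 : (6 * q * |u|) * (6 * q' * |v|) = 36 * (q * q' * |u * v|) := by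
    rw [abs_mul]; ring
  have h8 : 0 ≤ δ ^ 2 := sq_nonneg _
  have h9 : σb ^ 2 * ((u ^ 2 + v ^ 2) / 2) = σb ^ 2 * u ^ 2 / 2 + σb ^ 2 * v ^ 2 / 2 := by ring
  linarith only [h3, h5, h6, h7, h8, h9, k1, k2, hV0]

end Crest.Agent.H0127
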