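import Mathlib
import Crest.Agent.H0127.Edge

/-! Reversible chains: the Dirichlet identity, the two-cut inequality and the resolvent. -/

set_option autoImplicit false

namespace Crest.Agent.H0127

open Finset

variable {ι : Type*} [Fintype ι]

/-- `u` solves the resolvent equation with datum `f`. -/
def IsRes (t : ℝ) (A : Matrix ι ι ℝ) (u f : ι → ℝ) : Prop :=
  ∀ i, t * (u i - ∑ j, A i j * u j) = f i - u i

lemma IsRes.add {t : ℝ} {A : Matrix ι ι ℝ} {u f v g : ι → ℝ} (hu : IsRes t A u f)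
    (hv : IsRes t A v g) : IsRes t A (fun i => u i + v i) (fun i => f i + g i) := by
  intro i
  have h1 := hu i
  have h2 := hv i
  simp only [mul_add, Finset.sum_add_distrib]
  linarith

lemma dirichlet {t : ℝ} {w : ι → ℝ} {A : Matrix ι ι ℝ} (hA1 : ∀ i, ∑ j, A i j = 1)
    (hrev : ∀ i j, w i * A i j = w j * A j i) {u f : ι → ℝ} (hu : IsRes t A u f) (ψ : ι → ℝ) :
    t * ∑ i, ∑ j, w i * A i j * ((u i - u j) * (ψ i - ψ j)) =
      2 * ∑ i, w i * (ψ i * (f i - u i)) := by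
  have h1 : ∑ i, ∑ j, w i * A i j * ((u i - u j) * (ψ i - ψ j)) =
      ∑ i, ∑ j, w i * A i j * ((u i - u j) * ψ i) +
        ∑ i, ∑ j, w i * A i j * ((u j - u i) * ψ j) := by
    rw [← Finset.sum_add_distrib]
    refine Finset.sum_congr rfl fun i _ => ?_
    rw [← Finset.sum_add_distrib]
    refine Finset.sum_congr rfl fun j _ => ?_
    ring
  have h2 : ∑ i, ∑ j, w i * A i j * ((u j - u i) * ψ j) =
      ∑ i, ∑ j, w i * A i j * ((u i - u j) * ψ i) := by
    rw [Finset.sum_comm]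
    refine Finset.sum_congr rfl fun i _ => Finset.sum_congr rfl fun j _ => ?_
    rw [hrev]
  have h3 : ∀ i, t * ∑ j, w i * A i j * ((u i - u j) * ψ i) = w i * (ψ i * (f i - u i)) := by
    intro i
    rw [← hu i]
    have : ∑ j, w i * A i j * ((u i - u j) * ψ i) =
        w i * ψ i * (u i * ∑ j, A i j - ∑ j, A i j * u j) := by
      rw [Finset.mul_sum, ← Finset.sum_sub_distrib, Finset.mul_sum]
      refine Finset.sum_congr rfl fun j _ => ?_
      ring
    rw [this, hA1]; ring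
  rw [h1, h2, ← two_mul, ← mul_assoc, mul_comm t 2, mul_assoc, Finset.mul_sum]
  congr 1
  exact Finset.sum_congr rfl fun i _ => h3 i

lemma vertex_ineq {a b c d fa fb fc fd : ℝ} (ha : 0 ≤ a) (hb : 0 ≤ b) (hc : 0 ≤ c) (hd : 0 ≤ d)
    (h : a + b + c + d = 1) (hfa : 0 ≤ fa) (hfb : 0 ≤ fb) (hfc : 0 ≤ fc) (hfd : 0 ≤ fd)
    (hf : fa + fb + fc + fd = 1) :
    2 * ((a * d - b * c) ^ 2 * (c + d - 1 / 2) * ((fc + fd) - (c + d)))
      + 2 * ((a * d - b * c) ^ 2 * (b + d - 1 / 2) * ((fb + fd) - (b + d)))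
      + (2 * (d * a * (fd - d)) - d ^ 2 * (fa - a)) + (2 * (a * d * (fa - a)) - a ^ 2 * (fd - d))
      + (2 * (c * b * (fc - c)) - c ^ 2 * (fb - b)) + (2 * (b * c * (fb - b)) - b ^ 2 * (fc - c))
      ≤ 2 * (fa * d + fd * a + fb * c + fc * b) := by
  have hR : 0 ≤ (a * d - b * c) ^ 2 := sq_nonneg _
  have k : ∀ p x : ℝ, 0 ≤ x → x ≤ 1 → (p - 1 / 2) * (x - p) ≤ 1 / 16 := by
    intro p x hx0 hx1
    nlinarith [sq_nonneg (2 * p - 1 / 2 - x), mul_nonneg hx0 (sub_nonneg.2 hx1)]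
  have k1 := mul_le_mul_of_nonneg_left (k (c + d) (fc + fd) (by linarith) (by linarith)) hR
  have k2 := mul_le_mul_of_nonneg_left (k (b + d) (fb + fd) (by linarith) (by linarith)) hR
  have had : 0 ≤ a * d := mul_nonneg ha hd
  have hbc : 0 ≤ b * c := mul_nonneg hb hc
  have had1 : a * d ≤ a + d := by nlinarith
  have hbc1 : b * c ≤ b + c := by nlinarith
  have h1 : (a * d - b * c) ^ 2 ≤ a * d * (a + d) + b * c * (b + c) := by
    have := mul_le_mul_of_nonneg_left had1 had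
    have := mul_le_mul_of_nonneg_left hbc1 hbc
    have := mul_nonneg had hbc
    nlinarith
  have ha1 : a ≤ 1 := by linarith
  have hb1 : b ≤ 1 := by linarith
  have hc1 : c ≤ 1 := by linarith
  have hd1 : d ≤ 1 := by linarith
  have e1 : 0 ≤ fd * a * (1 - d) := mul_nonneg (mul_nonneg hfd ha) (by linarith)
  have e2 : 0 ≤ fa * d * (1 - a) := mul_nonneg (mul_nonneg hfa hd) (by linarith)
  have e3 : 0 ≤ fc * b * (1 - c) := mul_nonneg (mul_nonneg hfc hb) (by linarith)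
  have e4 : 0 ≤ fb * c * (1 - b) := mul_nonneg (mul_nonneg hfb hc) (by linarith)
  have e5 : 0 ≤ d ^ 2 * fa := by positivity
  have e6 : 0 ≤ a ^ 2 * fd := by positivity
  have e7 : 0 ≤ c ^ 2 * fb := by positivity
  have e8 : 0 ≤ b ^ 2 * fc := by positivity
  nlinarith

lemma two_cut {t : ℝ} (ht : 0 ≤ t) {w : ι → ℝ} {A : Matrix ι ι ℝ} (hw : ∀ i, 0 ≤ w i)
    (hA : ∀ i j, 0 ≤ A i j) (hA1 : ∀ i, ∑ j, A i j = 1)
    (hrev : ∀ i j, w i * A i j = w j * A j i) {a b c d fa fb fc fd : ι → ℝ}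
    (ra : IsRes t A a fa) (rb : IsRes t A b fb) (rc : IsRes t A c fc) (rd : IsRes t A d fd)
    (ha : ∀ i, 0 ≤ a i) (hb : ∀ i, 0 ≤ b i) (hc : ∀ i, 0 ≤ c i) (hd : ∀ i, 0 ≤ d i)
    (h : ∀ i, a i + b i + c i + d i = 1) (hfa : ∀ i, 0 ≤ fa i) (hfb : ∀ i, 0 ≤ fb i)
    (hfc : ∀ i, 0 ≤ fc i) (hfd : ∀ i, 0 ≤ fd i) (hf : ∀ i, fa i + fb i + fc i + fd i = 1) :
    t * ∑ i, ∑ j, w i * A i j *
        (|phi (c i + d i) - phi (c j + d j)| * |phi (b i + d i) - phi (b j + d j)|) ≤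
      72 * ∑ i, w i * (fa i * d i + fd i * a i + fb i * c i + fc i * b i) := by
  have D1 := dirichlet hA1 hrev (rc.add rd)
    (fun i => (a i * d i - b i * c i) ^ 2 * (c i + d i - 1 / 2))
  have D2 := dirichlet hA1 hrev (rb.add rd)
    (fun i => (a i * d i - b i * c i) ^ 2 * (b i + d i - 1 / 2))
  have D3 := dirichlet hA1 hrev rd (fun i => d i * a i)
  have D4 := dirichlet hA1 hrev ra (fun i => d i ^ 2)
  have D5 := dirichlet hA1 hrev ra (fun i => a i * d i)
  have D6 := dirichlet hA1 hrev rd (fun i => a i ^ 2)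
  have D7 := dirichlet hA1 hrev rc (fun i => c i * b i)
  have D8 := dirichlet hA1 hrev rb (fun i => c i ^ 2)
  have D9 := dirichlet hA1 hrev rb (fun i => b i * c i)
  have D10 := dirichlet hA1 hrev rc (fun i => b i ^ 2)
  have E : ∑ i, ∑ j, w i * A i j *
        (|phi (c i + d i) - phi (c j + d j)| * |phi (b i + d i) - phi (b j + d j)|) ≤
      36 * (∑ i, ∑ j, w i * A i j * ((c i + d i - (c j + d j)) *
            ((a i * d i - b i * c i) ^ 2 * (c i + d i - 1 / 2) -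
              (a j * d j - b j * c j) ^ 2 * (c j + d j - 1 / 2)))
        + ∑ i, ∑ j, w i * A i j * ((b i + d i - (b j + d j)) *
            ((a i * d i - b i * c i) ^ 2 * (b i + d i - 1 / 2) -
              (a j * d j - b j * c j) ^ 2 * (b j + d j - 1 / 2)))
        + ∑ i, ∑ j, w i * A i j * ((d i - d j) * (d i * a i - d j * a j))
        - (1 / 2) * ∑ i, ∑ j, w i * A i j * ((a i - a j) * (d i ^ 2 - d j ^ 2))
        + ∑ i, ∑ j, w i * A i j * ((a i - a j) * (a i * d i - a j * d j))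
        - (1 / 2) * ∑ i, ∑ j, w i * A i j * ((d i - d j) * (a i ^ 2 - a j ^ 2))
        + ∑ i, ∑ j, w i * A i j * ((c i - c j) * (c i * b i - c j * b j))
        - (1 / 2) * ∑ i, ∑ j, w i * A i j * ((b i - b j) * (c i ^ 2 - c j ^ 2))
        + ∑ i, ∑ j, w i * A i j * ((b i - b j) * (b i * c i - b j * c j))
        - (1 / 2) * ∑ i, ∑ j, w i * A i j * ((c i - c j) * (b i ^ 2 - b j ^ 2))) := by
    simp only [Finset.mul_sum, ← Finset.sum_add_distrib, ← Finset.sum_sub_distrib]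
    refine Finset.sum_le_sum fun i _ => Finset.sum_le_sum fun j _ => ?_
    have he := edge_ineq (ha i) (hb i) (hc i) (hd i) (h i) (ha j) (hb j) (hc j) (hd j) (h j)
    have hwA : 0 ≤ w i * A i j := mul_nonneg (hw i) (hA i j)
    refine (mul_le_mul_of_nonneg_left he hwA).trans (le_of_eq ?_)
    ring
  have V : 2 * ∑ i, w i * ((a i * d i - b i * c i) ^ 2 * (c i + d i - 1 / 2) *
          (fc i + fd i - (c i + d i)))
      + 2 * ∑ i, w i * ((a i * d i - b i * c i) ^ 2 * (b i + d i - 1 / 2) *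
          (fb i + fd i - (b i + d i)))
      + 2 * ∑ i, w i * (d i * a i * (fd i - d i)) - ∑ i, w i * (d i ^ 2 * (fa i - a i))
      + 2 * ∑ i, w i * (a i * d i * (fa i - a i)) - ∑ i, w i * (a i ^ 2 * (fd i - d i))
      + 2 * ∑ i, w i * (c i * b i * (fc i - c i)) - ∑ i, w i * (c i ^ 2 * (fb i - b i))
      + 2 * ∑ i, w i * (b i * c i * (fb i - b i)) - ∑ i, w i * (b i ^ 2 * (fc i - c i))
      ≤ 2 * ∑ i, w i * (fa i * d i + fd i * a i + fb i * c i + fc i * b i) := by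
    simp only [Finset.mul_sum, ← Finset.sum_add_distrib, ← Finset.sum_sub_distrib]
    refine Finset.sum_le_sum fun i _ => ?_
    have hv := vertex_ineq (ha i) (hb i) (hc i) (hd i) (h i) (hfa i) (hfb i) (hfc i) (hfd i) (hf i)
    have := mul_le_mul_of_nonneg_left hv (hw i)
    linarith
  have E' := mul_le_mul_of_nonneg_left E ht
  linarith

section resolvent

variable [DecidableEq ι]

lemma exists_resolvent {t : ℝ} (ht : 0 ≤ t) {A : Matrix ι ι ℝ}
    (hA : ∀ i j, 0 ≤ A i j) (hA1 : ∀ i, ∑ j, A i j = 1) :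
    ∃ K : Matrix ι ι ℝ, (∀ i j, 0 ≤ K i j) ∧ (∀ i, ∑ j, K i j = 1) ∧
      (t + 1) • K = 1 + t • (A * K) := by
  set M : Matrix ι ι ℝ := (t + 1) • (1 : Matrix ι ι ℝ) - t • A with hM
  have hMv : ∀ (u : ι → ℝ) k, (M.mulVec u) k = (t + 1) * u k - t * ∑ j, A k j * u j := by
    intro u k
    rw [hM, Matrix.sub_mulVec, Matrix.smul_mulVec, Matrix.smul_mulVec, Matrix.one_mulVec]
    rfl
  -- minimum principle
  have hmin : ∀ u : ι → ℝ, (∀ i, 0 ≤ (M.mulVec u) i) → ∀ i, 0 ≤ u i := by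
    intro u hu i
    obtain ⟨k, -, hk⟩ := Finset.exists_min_image Finset.univ u ⟨i, Finset.mem_univ i⟩
    have h1 := hu k
    have h2 := hMv u k
    have h3 : u k ≤ ∑ j, A k j * u j := by
      calc u k = ∑ j, A k j * u k := by rw [← Finset.sum_mul, hA1, one_mul]
        _ ≤ _ := Finset.sum_le_sum fun j _ =>
          mul_le_mul_of_nonneg_left (hk j (Finset.mem_univ j)) (hA k j)
    have h4 : t * u k ≤ t * ∑ j, A k j * u j := mul_le_mul_of_nonneg_left h3 ht
    have h5 := hk i (Finset.mem_univ i)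
    linarith
  have hinj : Function.Injective M.mulVec := by
    intro u v huv
    have h1 : M.mulVec (u - v) = 0 := by rw [Matrix.mulVec_sub, huv, sub_self]
    have h2 : M.mulVec (v - u) = 0 := by rw [Matrix.mulVec_sub, huv, sub_self]
    funext i
    have h3 := hmin _ (fun i => by rw [h1]; simp) i
    have h4 := hmin _ (fun i => by rw [h2]; simp) i
    simp only [Pi.sub_apply] at h3 h4
    linarith
  have hU : IsUnit M := Matrix.mulVec_injective_iff_isUnit.1 hinj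
  have hdet : IsUnit M.det := (Matrix.isUnit_iff_isUnit_det M).1 hU
  have hMK : M * M⁻¹ = 1 := Matrix.mul_nonsing_inv M hdet
  have hKM : M⁻¹ * M = 1 := Matrix.nonsing_inv_mul M hdet
  refine ⟨M⁻¹, fun i j => ?_, fun i => ?_, ?_⟩
  · refine hmin (fun k => M⁻¹ k j) (fun k => ?_) i
    have : (M.mulVec fun k => M⁻¹ k j) k = (M * M⁻¹) k j := rfl
    rw [this, hMK, Matrix.one_apply]
    split_ifs <;> norm_num
  · have h1 : M.mulVec (fun _ => (1 : ℝ)) = fun _ => 1 := by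
      funext k
      rw [hMv]; simp [hA1]
    have h2 : (M⁻¹ * M).mulVec (fun _ => (1 : ℝ)) = M⁻¹.mulVec (fun _ => 1) := by
      rw [← Matrix.mulVec_mulVec, h1]
    rw [hKM, Matrix.one_mulVec] at h2
    have h3 := congrFun h2 i
    simpa [Matrix.mulVec, dotProduct] using h3.symm
  · have : ∀ N : Matrix ι ι ℝ, M * N = (t + 1) • N - t • (A * N) := by
      intro N
      rw [hM, Matrix.sub_mul, Matrix.smul_mul, Matrix.smul_mul, Matrix.one_mul]
    have h3 := this M⁻¹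
    rw [hMK] at h3
    rw [h3]; abel

lemma isRes_mulVec {t : ℝ} {A K : Matrix ι ι ℝ} (hK : (t + 1) • K = 1 + t • (A * K))
    (f : ι → ℝ) : IsRes t A (K.mulVec f) f := by
  intro i
  have h1 := congrFun (congrArg (fun M : Matrix ι ι ℝ => M.mulVec f) hK) i
  simp only [Matrix.smul_mulVec, Matrix.add_mulVec, Matrix.one_mulVec, Pi.smul_apply,
    Pi.add_apply, smul_eq_mul, ← Matrix.mulVec_mulVec] at h1
  have h2 : (A.mulVec (K.mulVec f)) i = ∑ j, A i j * (K.mulVec f) j := rfl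
  rw [h2] at h1
  linarith

end resolvent

end Crest.Agent.H0127
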