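import Mathlib
import Crest.Agent.H0127.Chain

/-! Comparison of the resolvent energy with the Cesàro energy; cut decomposition of a vector. -/

set_option autoImplicit false

namespace Crest.Agent.H0127

open Finset

variable {ι : Type*} [Fintype ι]

/-- The energy `∑ w i P i j d(i,j)²`. -/
def en (w : ι → ℝ) (d : ι → ι → ℝ) (P : Matrix ι ι ℝ) : ℝ := ∑ i, ∑ j, w i * P i j * d i j ^ 2

lemma en_add (w : ι → ℝ) (d : ι → ι → ℝ) (P Q : Matrix ι ι ℝ) :
    en w d (P + Q) = en w d P + en w d Q := by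
  simp only [en, Matrix.add_apply, ← Finset.sum_add_distrib]
  exact Finset.sum_congr rfl fun i _ => Finset.sum_congr rfl fun j _ => by ring

lemma en_smul (w : ι → ℝ) (d : ι → ι → ℝ) (c : ℝ) (P : Matrix ι ι ℝ) :
    en w d (c • P) = c * en w d P := by
  simp only [en, Matrix.smul_apply, smul_eq_mul, Finset.mul_sum]
  exact Finset.sum_congr rfl fun i _ => Finset.sum_congr rfl fun j _ => by ring

lemma en_sum {κ : Type*} (w : ι → ℝ) (d : ι → ι → ℝ) (s : Finset κ) (P : κ → Matrix ι ι ℝ) :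
    en w d (∑ k ∈ s, P k) = ∑ k ∈ s, en w d (P k) := by
  classical
  induction s using Finset.induction_on with
  | empty => simp [en]
  | insert a s ha ih => rw [Finset.sum_insert ha, Finset.sum_insert ha, en_add, ih]

lemma en_nonneg {w : ι → ℝ} (hw : ∀ i, 0 ≤ w i) (d : ι → ι → ℝ) {P : Matrix ι ι ℝ}
    (hP : ∀ i j, 0 ≤ P i j) : 0 ≤ en w d P :=
  Finset.sum_nonneg fun i _ => Finset.sum_nonneg fun j _ =>
    mul_nonneg (mul_nonneg (hw i) (hP i j)) (sq_nonneg _)

lemma en_mul_le {w : ι → ℝ} (hw : ∀ i, 0 ≤ w i) {d : ι → ι → ℝ} (hd0 : ∀ i j, 0 ≤ d i j)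
    (htri : ∀ i j k, d i k ≤ d i j + d j k) {P Q : Matrix ι ι ℝ} (hP : ∀ i j, 0 ≤ P i j)
    (hQ : ∀ i j, 0 ≤ Q i j) (hst : ∀ j, ∑ i, w i * P i j = w j) (hQ1 : ∀ i, ∑ j, Q i j = 1)
    {α β : ℝ} (hαβ : ∀ x y : ℝ, (x + y) ^ 2 ≤ α * x ^ 2 + β * y ^ 2) :
    en w d (P * Q) ≤ α * en w d P + β * en w d Q := by
  have h1 : en w d (P * Q) = ∑ i, ∑ j, ∑ k, w i * P i j * Q j k * d i k ^ 2 := by
    unfold en
    refine Finset.sum_congr rfl fun i _ => ?_
    rw [Finset.sum_comm]
    refine Finset.sum_congr rfl fun k _ => ?_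
    rw [Matrix.mul_apply, Finset.mul_sum, Finset.sum_mul]
    exact Finset.sum_congr rfl fun j _ => by ring
  have h2 : en w d P = ∑ i, ∑ j, ∑ k, w i * P i j * Q j k * d i j ^ 2 := by
    unfold en
    refine Finset.sum_congr rfl fun i _ => Finset.sum_congr rfl fun j _ => ?_
    rw [← Finset.sum_mul, ← Finset.mul_sum, hQ1, mul_one]
  have h3 : en w d Q = ∑ i, ∑ j, ∑ k, w i * P i j * Q j k * d j k ^ 2 := by
    unfold en
    rw [Finset.sum_comm (f := fun i j => ∑ k, w i * P i j * Q j k * d j k ^ 2)]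
    refine Finset.sum_congr rfl fun j _ => ?_
    rw [Finset.sum_comm]
    refine Finset.sum_congr rfl fun k _ => ?_
    rw [← Finset.sum_mul, ← Finset.sum_mul, hst]
  rw [h1, h2, h3]
  simp only [Finset.mul_sum, ← Finset.sum_add_distrib]
  refine Finset.sum_le_sum fun i _ => Finset.sum_le_sum fun j _ => Finset.sum_le_sum fun k _ => ?_
  have hc : 0 ≤ w i * P i j * Q j k := mul_nonneg (mul_nonneg (hw i) (hP i j)) (hQ j k)
  have h4 : d i k ^ 2 ≤ α * d i j ^ 2 + β * d j k ^ 2 :=
    (pow_le_pow_left₀ (hd0 i k) (htri i j k) 2).trans (hαβ _ _)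
  have := mul_le_mul_of_nonneg_left h4 hc
  linarith

variable [DecidableEq ι]

lemma pow_nonneg' {A : Matrix ι ι ℝ} (hA : ∀ i j, 0 ≤ A i j) (s : ℕ) : ∀ i j, 0 ≤ (A ^ s) i j := by
  induction s with
  | zero => intro i j; rw [pow_zero, Matrix.one_apply]; split_ifs <;> norm_num
  | succ s ih =>
    intro i j
    rw [pow_succ, Matrix.mul_apply]
    exact Finset.sum_nonneg fun k _ => mul_nonneg (ih i k) (hA k j)

lemma pow_row {A : Matrix ι ι ℝ} (hA1 : ∀ i, ∑ j, A i j = 1) (s : ℕ) :
    ∀ i, ∑ j, (A ^ s) i j = 1 := by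
  induction s with
  | zero => intro i; simp [Matrix.one_apply]
  | succ s ih =>
    intro i
    simp only [pow_succ, Matrix.mul_apply]
    rw [Finset.sum_comm]
    simp only [← Finset.mul_sum, hA1, mul_one, ih]

lemma pow_stat {w : ι → ℝ} {A : Matrix ι ι ℝ} (hA1 : ∀ i, ∑ j, A i j = 1)
    (hrev : ∀ i j, w i * A i j = w j * A j i) (s : ℕ) : ∀ j, ∑ i, w i * (A ^ s) i j = w j := by
  induction s with
  | zero => intro j; simp [Matrix.one_apply]
  | succ s ih =>
    intro j
    simp only [pow_succ, Matrix.mul_apply, Finset.mul_sum]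
    rw [Finset.sum_comm]
    have : ∀ k, ∑ i, w i * ((A ^ s) i k * A k j) = w j * A j k := by
      intro k
      rw [← hrev, ← ih k, Finset.sum_mul]
      exact Finset.sum_congr rfl fun i _ => by ring
    simp only [this, ← Finset.mul_sum, hA1, mul_one]

lemma resolvent_energy {t : ℕ} (ht : 1 ≤ t) {w : ι → ℝ} {A K : Matrix ι ι ℝ} (hw : ∀ i, 0 ≤ w i)
    (hA : ∀ i j, 0 ≤ A i j) (hA1 : ∀ i, ∑ j, A i j = 1)
    (hrev : ∀ i j, w i * A i j = w j * A j i) (hK0 : ∀ i j, 0 ≤ K i j)
    (hK1 : ∀ i, ∑ j, K i j = 1) (hK : ((t : ℝ) + 1) • K = 1 + (t : ℝ) • (A * K))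
    {d : ι → ι → ℝ} (hd0 : ∀ i j, 0 ≤ d i j) (hdd : ∀ i, d i i = 0)
    (htri : ∀ i j k, d i k ≤ d i j + d j k) :
    en w d K ≤ 28 * en w d ((1 / (t : ℝ)) • ∑ s ∈ Finset.Icc 1 t, A ^ s) := by
  have ht0 : (0 : ℝ) < t := by exact_mod_cast ht
  set θ : ℝ := t / (t + 1) with hθ
  have hθ0 : 0 ≤ θ := by positivity
  have hθ1 : θ ≤ 1 := by rw [hθ, div_le_one (by positivity)]; linarith
  have hK' : K = (1 / ((t : ℝ) + 1)) • (1 : Matrix ι ι ℝ) + θ • (A * K) := by
    have : K = (1 / ((t : ℝ) + 1)) • (((t : ℝ) + 1) • K) := by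
      rw [smul_smul, one_div_mul_cancel (by positivity), one_smul]
    conv_lhs => rw [this, hK]
    rw [smul_add, smul_smul]
    congr 2
    rw [hθ]; field_simp
  have hit : ∀ m : ℕ, K = (1 / ((t : ℝ) + 1)) • (∑ r ∈ Finset.range m, θ ^ r • A ^ r)
      + θ ^ m • (A ^ m * K) := by
    intro m
    induction m with
    | zero => simp
    | succ m ih =>
      have : A ^ m * K = (1 / ((t : ℝ) + 1)) • A ^ m + θ • (A ^ (m + 1) * K) := by
        conv_lhs => rw [hK']
        rw [Matrix.mul_add, Matrix.mul_smul, Matrix.mul_smul, Matrix.mul_one, pow_succ,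
          Matrix.mul_assoc]
      rw [Finset.sum_range_succ, smul_add]
      conv_lhs => rw [ih, this]
      rw [smul_add, smul_smul, smul_smul, smul_smul, pow_succ θ, mul_comm (θ ^ m) (1 / _), add_assoc]
  set e : ℕ → ℝ := fun s => en w d (A ^ s) with he
  have he0 : ∀ s, 0 ≤ e s := fun s => en_nonneg hw d (pow_nonneg' hA s)
  have hez : e 0 = 0 := by
    simp only [he, en, pow_zero, Matrix.one_apply]
    refine Finset.sum_eq_zero fun i _ => Finset.sum_eq_zero fun j _ => ?_
    split_ifs with h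
    · subst h; simp [hdd]
    · simp
  set S : ℝ := ∑ s ∈ Finset.range t, e (s + 1) with hS
  have hS0 : 0 ≤ S := Finset.sum_nonneg fun s _ => he0 _
  have hC : en w d ((1 / (t : ℝ)) • ∑ s ∈ Finset.Icc 1 t, A ^ s) = S / t := by
    rw [en_smul, en_sum, hS, Finset.range_eq_Ico,
      Finset.sum_Ico_add' (fun s => e s) 0 t 1]
    have : Finset.Ico (0 + 1) (t + 1) = Finset.Icc 1 t := by
      ext x; simp only [Finset.mem_Ico, Finset.mem_Icc]; omega
    rw [this]
    field_simp
    rfl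
  have hlong : e (t + 1) ≤ 4 * (S / t) := by
    have h1 : ∀ b ∈ Finset.range t, e (t + 1) ≤ 2 * e (b + 1) + 2 * e (t - 1 - b + 1) := by
      intro b hb
      have hb' := Finset.mem_range.1 hb
      have : t + 1 = (b + 1) + (t - 1 - b + 1) := by omega
      simp only [he]
      rw [this, pow_add]
      exact en_mul_le hw hd0 htri (pow_nonneg' hA _) (pow_nonneg' hA _) (pow_stat hA1 hrev _)
        (pow_row hA1 _) (fun x y => by nlinarith [sq_nonneg (x - y)])
    have h2 := Finset.sum_le_sum h1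
    rw [Finset.sum_const, Finset.card_range, nsmul_eq_mul, Finset.sum_add_distrib,
      ← Finset.mul_sum, ← Finset.mul_sum,
      Finset.sum_range_reflect (fun s => e (s + 1)) t, ← hS] at h2
    rw [← mul_div_assoc, le_div_iff₀ ht0]
    linarith
  have hρ : θ ^ (t + 1) ≤ 1 / 2 := by
    have h1 : (2 : ℝ) ≤ (1 + 1 / t) ^ (t + 1) := by
      have := one_add_mul_le_pow (a := (1 / t : ℝ)) (by
        have : (0 : ℝ) ≤ 1 / t := by positivity
        linarith) (t + 1)
      refine le_trans ?_ this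
      push_cast
      have : ((t : ℝ) + 1) * (1 / t) = 1 + 1 / t := by field_simp
      rw [this]
      have : (0 : ℝ) ≤ 1 / t := by positivity
      linarith
    have h2 : θ * (1 + 1 / t) = 1 := by rw [hθ]; field_simp
    have h3 : θ ^ (t + 1) * (1 + 1 / t) ^ (t + 1) = 1 := by rw [← mul_pow, h2, one_pow]
    have h4 : 0 ≤ θ ^ (t + 1) := by positivity
    nlinarith
  have hE0 : 0 ≤ en w d K := en_nonneg hw d hK0
  have hmain : en w d K = (1 / ((t : ℝ) + 1)) * (∑ r ∈ Finset.range (t + 1), θ ^ r * e r)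
      + θ ^ (t + 1) * en w d (A ^ (t + 1) * K) := by
    conv_lhs => rw [hit (t + 1)]
    rw [en_add, en_smul, en_smul, en_sum]
    simp only [en_smul, he]
  have h5 : en w d (A ^ (t + 1) * K) ≤ 3 * e (t + 1) + (3 / 2) * en w d K :=
    en_mul_le hw hd0 htri (pow_nonneg' hA _) hK0 (pow_stat hA1 hrev _) hK1
      (fun x y => by nlinarith [sq_nonneg (2 * x - y)])
  have h6 : ∑ r ∈ Finset.range (t + 1), θ ^ r * e r ≤ S := by
    rw [Finset.sum_range_succ', hez, mul_zero, add_zero]
    refine Finset.sum_le_sum fun s _ => ?_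
    exact mul_le_of_le_one_left (he0 _) (pow_le_one₀ hθ0 hθ1)
  have h7 : (1 / ((t : ℝ) + 1)) * (∑ r ∈ Finset.range (t + 1), θ ^ r * e r) ≤ S / t := by
    calc _ ≤ (1 / ((t : ℝ) + 1)) * S := mul_le_mul_of_nonneg_left h6 (by positivity)
      _ ≤ (1 / (t : ℝ)) * S := by
        refine mul_le_mul_of_nonneg_right ?_ hS0
        exact one_div_le_one_div_of_le ht0 (by linarith)
      _ = S / t := by ring
  have h8 : θ ^ (t + 1) * en w d (A ^ (t + 1) * K) ≤
      (1 / 2) * (3 * e (t + 1) + (3 / 2) * en w d K) :=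
    mul_le_mul hρ h5 (en_nonneg hw d fun i j => by
      rw [Matrix.mul_apply]
      exact Finset.sum_nonneg fun k _ => mul_nonneg (pow_nonneg' hA _ i k) (hK0 k j))
      (by norm_num)
  rw [hC]
  linarith

/-- Indicator of a finite set. -/
def ind (S : Finset ι) (i : ι) : ℝ := if i ∈ S then 1 else 0

lemma cut_decomp (z : ι → ℝ) : ∃ μ : Finset ι → ℝ, (∀ S, 0 ≤ μ S) ∧
    (∀ S, μ S ≠ 0 → ∃ i j, i ∈ S ∧ j ∉ S) ∧
    (∀ i j, z i - z j = ∑ S, μ S * (ind S i - ind S j)) ∧
    (∀ i j, |z i - z j| = ∑ S, μ S * |ind S i - ind S j|) := by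
  classical
  induction hN : (Finset.univ.image z).card using Nat.strong_induction_on generalizing z with
  | _ N ih =>
    by_cases hc : ∀ i j, z i = z j
    · refine ⟨fun _ => 0, fun _ => le_rfl, fun S h => (h rfl).elim, fun i j => ?_, fun i j => ?_⟩
      · simp [hc i j]
      · simp [hc i j]
    push Not at hc
    obtain ⟨i₁, j₁, hij⟩ := hc
    obtain ⟨k₁, -, hk₁⟩ := Finset.exists_max_image Finset.univ z ⟨i₁, Finset.mem_univ _⟩
    have hne : (Finset.univ.filter fun i => z i ≠ z k₁).Nonempty := by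
      by_cases h : z i₁ = z k₁
      · exact ⟨j₁, by simp only [Finset.mem_filter, Finset.mem_univ, true_and]; rw [← h]; exact hij.symm⟩
      · exact ⟨i₁, by simpa using h⟩
    obtain ⟨k₂, hk₂m, hk₂⟩ := Finset.exists_max_image _ z hne
    have hk₂ne : z k₂ ≠ z k₁ := by simpa using hk₂m
    have hlt : z k₂ < z k₁ := lt_of_le_of_ne (hk₁ k₂ (Finset.mem_univ _)) hk₂ne
    set z' : ι → ℝ := fun i => if z i = z k₁ then z k₂ else z i with hz'
    have hsub : Finset.univ.image z' ⊆ (Finset.univ.image z).erase (z k₁) := by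
      intro x hx
      obtain ⟨i, -, rfl⟩ := Finset.mem_image.1 hx
      rw [Finset.mem_erase]
      by_cases h : z i = z k₁
      · simp only [hz', h, if_true]
        exact ⟨hk₂ne, Finset.mem_image_of_mem _ (Finset.mem_univ _)⟩
      · simp only [hz', h, if_false]
        exact ⟨h, Finset.mem_image_of_mem _ (Finset.mem_univ _)⟩
    have hcard : (Finset.univ.image z').card < N := by
      rw [← hN]
      exact (Finset.card_le_card hsub).trans_lt
        (Finset.card_erase_lt_of_mem (Finset.mem_image_of_mem _ (Finset.mem_univ _)))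
    obtain ⟨μ, h0, hs, h1, h2⟩ := ih _ hcard z' rfl
    set T : Finset ι := Finset.univ.filter fun i => z i = z k₁ with hT
    have hindT : ∀ i, ind T i = if z i = z k₁ then 1 else 0 := by
      intro i; simp [ind, hT]
    have hle : ∀ i, z i ≠ z k₁ → z i ≤ z k₂ := fun i hi => hk₂ i (by simpa using hi)
    refine ⟨fun S => μ S + if S = T then z k₁ - z k₂ else 0, fun S => ?_, fun S hS => ?_,
      fun i j => ?_, fun i j => ?_⟩
    · have := h0 S
      dsimp only
      split_ifs <;> linarith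
    · by_cases hST : S = T
      · subst hST
        exact ⟨k₁, k₂, by simp [hT], by simpa [hT] using hk₂ne⟩
      · exact hs S (by simpa [hST] using hS)
    · simp only [add_mul, Finset.sum_add_distrib, ← h1, ite_mul, zero_mul, Finset.sum_ite_eq',
        Finset.mem_univ, if_true, hindT, hz']
      split_ifs with hi hj hj
      · rw [hi, hj]; ring
      · rw [hi]; ring
      · rw [hj]; ring
      · ring
    · simp only [add_mul, Finset.sum_add_distrib, ← h2, ite_mul, zero_mul, Finset.sum_ite_eq',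
        Finset.mem_univ, if_true, hindT, hz']
      split_ifs with hi hj hj
      · rw [hi, hj]; simp
      · have := hle j hj
        rw [hi, abs_of_nonneg (by linarith), abs_of_nonneg (by linarith)]; simp
      · have := hle i hi
        rw [hj, abs_of_nonpos (by linarith), abs_of_nonpos (by linarith)]; simp
      · simp

end Crest.Agent.H0127
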