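import Mathlib
import Crest.Agent.H0127.Energy

/-! The combinatorial core: cut metrics have metric Markov cotype two. -/

set_option autoImplicit false

namespace Crest.Agent.H0127

open Finset

variable {ι : Type*} [Fintype ι] [DecidableEq ι]

omit [Fintype ι] in
lemma ind_nonneg (S : Finset ι) (i : ι) : 0 ≤ ind S i := by
  unfold ind; split_ifs <;> norm_num

omit [Fintype ι] in
lemma ind_le_one (S : Finset ι) (i : ι) : ind S i ≤ 1 := by
  unfold ind; split_ifs <;> norm_num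

lemma mulVec_mem {K : Matrix ι ι ℝ} (hK0 : ∀ i j, 0 ≤ K i j) (hK1 : ∀ i, ∑ j, K i j = 1)
    (S : Finset ι) (i : ι) : 0 ≤ K.mulVec (ind S) i ∧ K.mulVec (ind S) i ≤ 1 := by
  have e : K.mulVec (ind S) i = ∑ j, K i j * ind S j := rfl
  rw [e]
  refine ⟨Finset.sum_nonneg fun j _ => mul_nonneg (hK0 i j) (ind_nonneg S j), ?_⟩
  rw [← hK1 i]
  exact Finset.sum_le_sum fun j _ => mul_le_of_le_one_right (hK0 i j) (ind_le_one S j)

lemma displacement {K : Matrix ι ι ℝ} (hK0 : ∀ i j, 0 ≤ K i j) (hK1 : ∀ i, ∑ j, K i j = 1)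
    (S : Finset ι) (i : ι) :
    |phi (K.mulVec (ind S) i) - ind S i| ≤ 2 * ∑ j, K i j * |ind S i - ind S j| := by
  obtain ⟨h0, h1⟩ := mulVec_mem hK0 hK1 S i
  have h2 : |phi (K.mulVec (ind S) i) - ind S i| ≤ 2 * |K.mulVec (ind S) i - ind S i| := by
    by_cases h : i ∈ S
    · have : ind S i = 1 := by simp [ind, h]
      rw [this]; exact abs_phi_sub_one_le h0 h1
    · have : ind S i = 0 := by simp [ind, h]
      rw [this]; exact abs_phi_sub_zero_le h0 h1
  refine h2.trans (mul_le_mul_of_nonneg_left ?_ (by norm_num))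
  have e : K.mulVec (ind S) i - ind S i = ∑ j, K i j * (ind S j - ind S i) := by
    have e : K.mulVec (ind S) i = ∑ j, K i j * ind S j := rfl
    simp only [mul_sub, Finset.sum_sub_distrib, ← Finset.sum_mul, hK1, one_mul, e]
  rw [e]
  refine (Finset.abs_sum_le_sum_abs _ _).trans (Finset.sum_le_sum fun j _ => ?_)
  rw [abs_mul, abs_of_nonneg (hK0 i j), abs_sub_comm]

lemma two_cut_ind {t : ℝ} (ht : 0 ≤ t) {w : ι → ℝ} {A K : Matrix ι ι ℝ} (hw : ∀ i, 0 ≤ w i)
    (hA : ∀ i j, 0 ≤ A i j) (hA1 : ∀ i, ∑ j, A i j = 1)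
    (hrev : ∀ i j, w i * A i j = w j * A j i) (hK0 : ∀ i j, 0 ≤ K i j)
    (hK1 : ∀ i, ∑ j, K i j = 1) (hK : (t + 1) • K = 1 + t • (A * K)) (S T : Finset ι) :
    t * ∑ i, ∑ j, w i * A i j *
        (|phi (K.mulVec (ind S) i) - phi (K.mulVec (ind S) j)| *
          |phi (K.mulVec (ind T) i) - phi (K.mulVec (ind T) j)|) ≤
      72 * ∑ i, ∑ j, w i * K i j * (|ind S i - ind S j| * |ind T i - ind T j|) := by
  set fa : ι → ℝ := fun i => (1 - ind S i) * (1 - ind T i) with hfa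
  set fb : ι → ℝ := fun i => (1 - ind S i) * ind T i with hfb
  set fc : ι → ℝ := fun i => ind S i * (1 - ind T i) with hfc
  set fd : ι → ℝ := fun i => ind S i * ind T i with hfd
  have p0 : ∀ f : ι → ℝ, (∀ i, 0 ≤ f i) → ∀ i, 0 ≤ K.mulVec f i := fun f hf i =>
    Finset.sum_nonneg fun j _ => mul_nonneg (hK0 i j) (hf j)
  have a0 : ∀ i, 0 ≤ fa i := fun i =>
    mul_nonneg (sub_nonneg.2 (ind_le_one S i)) (sub_nonneg.2 (ind_le_one T i))
  have b0 : ∀ i, 0 ≤ fb i := fun i => mul_nonneg (sub_nonneg.2 (ind_le_one S i)) (ind_nonneg T i)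
  have c0 : ∀ i, 0 ≤ fc i := fun i => mul_nonneg (ind_nonneg S i) (sub_nonneg.2 (ind_le_one T i))
  have d0 : ∀ i, 0 ≤ fd i := fun i => mul_nonneg (ind_nonneg S i) (ind_nonneg T i)
  have mv : ∀ (f : ι → ℝ) i, K.mulVec f i = ∑ j, K i j * f j := fun _ _ => rfl
  have hsum : ∀ i, K.mulVec fa i + K.mulVec fb i + K.mulVec fc i + K.mulVec fd i = 1 := by
    intro i
    simp only [mv, ← Finset.sum_add_distrib]
    rw [← hK1 i]
    refine Finset.sum_congr rfl fun j _ => ?_
    simp only [hfa, hfb, hfc, hfd]; ring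
  have hS : ∀ i, K.mulVec fc i + K.mulVec fd i = K.mulVec (ind S) i := by
    intro i
    simp only [mv, ← Finset.sum_add_distrib]
    refine Finset.sum_congr rfl fun j _ => ?_
    simp only [hfc, hfd]; ring
  have hT : ∀ i, K.mulVec fb i + K.mulVec fd i = K.mulVec (ind T) i := by
    intro i
    simp only [mv, ← Finset.sum_add_distrib]
    refine Finset.sum_congr rfl fun j _ => ?_
    simp only [hfb, hfd]; ring
  have h := two_cut ht hw hA hA1 hrev (isRes_mulVec hK fa) (isRes_mulVec hK fb)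
    (isRes_mulVec hK fc) (isRes_mulVec hK fd) (p0 _ a0) (p0 _ b0) (p0 _ c0) (p0 _ d0) hsum
    a0 b0 c0 d0 (fun i => by simp only [hfa, hfb, hfc, hfd]; ring)
  simp only [hS, hT] at h
  refine h.trans (le_of_eq ?_)
  congr 1
  refine Finset.sum_congr rfl fun i _ => ?_
  simp only [mv, Finset.mul_sum, ← Finset.sum_add_distrib]
  refine Finset.sum_congr rfl fun j _ => ?_
  simp only [hfa, hfb, hfc, hfd, ind]
  split_ifs <;> simp

omit [DecidableEq ι] in
lemma quad_swap {κ : Type*} [Fintype κ] (c : ι → ι → ℝ) (μ : κ → ℝ) (g : κ → ι → ι → ℝ) :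
    ∑ i, ∑ j, c i j * (∑ S, μ S * g S i j) ^ 2 =
      ∑ S, ∑ T, μ S * μ T * ∑ i, ∑ j, c i j * (g S i j * g T i j) := by
  have h1 : ∀ i j, c i j * (∑ S, μ S * g S i j) ^ 2 =
      ∑ S, ∑ T, μ S * μ T * (c i j * (g S i j * g T i j)) := by
    intro i j
    rw [sq, Finset.sum_mul_sum, Finset.mul_sum]
    refine Finset.sum_congr rfl fun S _ => ?_
    rw [Finset.mul_sum]
    exact Finset.sum_congr rfl fun T _ => by ring
  simp only [h1, Finset.mul_sum]
  calc ∑ i, ∑ j, ∑ S, ∑ T, μ S * μ T * (c i j * (g S i j * g T i j))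
      = ∑ i, ∑ S, ∑ j, ∑ T, μ S * μ T * (c i j * (g S i j * g T i j)) :=
        Finset.sum_congr rfl fun i _ => Finset.sum_comm
    _ = ∑ S, ∑ i, ∑ j, ∑ T, μ S * μ T * (c i j * (g S i j * g T i j)) := Finset.sum_comm
    _ = ∑ S, ∑ i, ∑ T, ∑ j, μ S * μ T * (c i j * (g S i j * g T i j)) :=
        Finset.sum_congr rfl fun S _ => Finset.sum_congr rfl fun i _ => Finset.sum_comm
    _ = _ := Finset.sum_congr rfl fun S _ => Finset.sum_comm

lemma core_bound {t : ℕ} (ht : 1 ≤ t) {w : ι → ℝ} {A K : Matrix ι ι ℝ} (hw : ∀ i, 0 ≤ w i)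
    (hA : ∀ i j, 0 ≤ A i j) (hA1 : ∀ i, ∑ j, A i j = 1)
    (hrev : ∀ i j, w i * A i j = w j * A j i) (hK0 : ∀ i j, 0 ≤ K i j)
    (hK1 : ∀ i, ∑ j, K i j = 1) (hK : ((t : ℝ) + 1) • K = 1 + (t : ℝ) • (A * K))
    {μ : Finset ι → ℝ} (hμ : ∀ S, 0 ≤ μ S) {d : ι → ι → ℝ}
    (hd : ∀ i j, d i j = ∑ S, μ S * |ind S i - ind S j|)
    {r : ι → ℝ} (hr0 : ∀ i, 0 ≤ r i)
    (hr : ∀ i, r i ≤ ∑ S, μ S * |phi (K.mulVec (ind S) i) - ind S i|)
    {D : ι → ι → ℝ} (hD0 : ∀ i j, 0 ≤ D i j)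
    (hD : ∀ i j, D i j ≤ ∑ S, μ S * |phi (K.mulVec (ind S) i) - phi (K.mulVec (ind S) j)|) :
    ∑ i, w i * r i ^ 2 + t * ∑ i, ∑ j, w i * A i j * D i j ^ 2 ≤ 76 * en w d K := by
  have ht0 : (0 : ℝ) ≤ t := Nat.cast_nonneg t
  have h1 : ∑ i, w i * r i ^ 2 ≤ 4 * en w d K := by
    unfold en
    rw [Finset.mul_sum]
    refine Finset.sum_le_sum fun i _ => ?_
    have e1 : r i ≤ 2 * ∑ j, K i j * d i j := by
      refine (hr i).trans ?_
      calc _ ≤ ∑ S, μ S * (2 * ∑ j, K i j * |ind S i - ind S j|) :=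
            Finset.sum_le_sum fun S _ => mul_le_mul_of_nonneg_left (displacement hK0 hK1 S i) (hμ S)
        _ = 2 * ∑ j, K i j * d i j := by
            simp only [hd, Finset.mul_sum]
            rw [Finset.sum_comm]
            exact Finset.sum_congr rfl fun j _ => Finset.sum_congr rfl fun S _ => by ring
    have e2 : (∑ j, K i j * d i j) ^ 2 ≤ ∑ j, K i j * d i j ^ 2 := by
      have := Finset.sum_sq_le_sum_mul_sum_of_sq_le_mul Finset.univ
        (r := fun j => K i j * d i j) (f := fun j => K i j) (g := fun j => K i j * d i j ^ 2)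
        (fun j _ => hK0 i j) (fun j _ => mul_nonneg (hK0 i j) (sq_nonneg _))
        (fun j _ => le_of_eq (by ring))
      rwa [hK1, one_mul] at this
    have e3 : r i ^ 2 ≤ 4 * ∑ j, K i j * d i j ^ 2 := by
      have := pow_le_pow_left₀ (hr0 i) e1 2
      nlinarith
    have e4 := mul_le_mul_of_nonneg_left e3 (hw i)
    refine e4.trans (le_of_eq ?_)
    simp only [Finset.mul_sum]
    exact Finset.sum_congr rfl fun j _ => by ring
  have h2 : (t : ℝ) * ∑ i, ∑ j, w i * A i j * D i j ^ 2 ≤ 72 * en w d K := by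
    set g : Finset ι → ι → ι → ℝ :=
      fun S i j => |phi (K.mulVec (ind S) i) - phi (K.mulVec (ind S) j)| with hg
    calc (t : ℝ) * ∑ i, ∑ j, w i * A i j * D i j ^ 2
        ≤ t * ∑ i, ∑ j, w i * A i j * (∑ S, μ S * g S i j) ^ 2 := by
          refine mul_le_mul_of_nonneg_left ?_ ht0
          refine Finset.sum_le_sum fun i _ => Finset.sum_le_sum fun j _ => ?_
          exact mul_le_mul_of_nonneg_left (pow_le_pow_left₀ (hD0 i j) (hD i j) 2)
            (mul_nonneg (hw i) (hA i j))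
      _ = ∑ S, ∑ T, μ S * μ T * (t * ∑ i, ∑ j, w i * A i j * (g S i j * g T i j)) := by
          rw [quad_swap (fun i j => w i * A i j) μ g, Finset.mul_sum]
          refine Finset.sum_congr rfl fun S _ => ?_
          rw [Finset.mul_sum]
          exact Finset.sum_congr rfl fun T _ => by ring
      _ ≤ ∑ S, ∑ T, μ S * μ T *
            (72 * ∑ i, ∑ j, w i * K i j * (|ind S i - ind S j| * |ind T i - ind T j|)) := by
          refine Finset.sum_le_sum fun S _ => Finset.sum_le_sum fun T _ => ?_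
          exact mul_le_mul_of_nonneg_left (two_cut_ind ht0 hw hA hA1 hrev hK0 hK1 hK S T)
            (mul_nonneg (hμ S) (hμ T))
      _ = 72 * en w d K := by
          simp only [en, hd]
          rw [quad_swap (fun i j => w i * K i j) μ (fun S i j => |ind S i - ind S j|),
            Finset.mul_sum]
          refine Finset.sum_congr rfl fun S _ => ?_
          rw [Finset.mul_sum]
          exact Finset.sum_congr rfl fun T _ => by ring
  linarith

end Crest.Agent.H0127
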